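import Vale.Agent.P347.Model
import Vale.Agent.P347.Zero.Assembly
import Vale.Agent.P347.Zero.AvgThm

/-!
The dimension exponent of the query complexity of well-conditioned log-concave sampling is zero.
-/

noncomputable section

open Filter Vale.Agent.P347

namespace Vale.Agent.Results.P347.ZeroExponent

theorem result :
    (∀ ε : ℝ, 0 < ε → ∃ d₀ : ℕ, ∀ d : ℕ, d₀ ≤ d →
      ∃ q : ℕ, (q : ℝ) ≤ (d : ℝ) ^ ε ∧ CanSample d q) ∧
    limsup (fun d : ℕ => Real.log (sInf {q | CanSample d q} : ℕ) / Real.log d) atTop = 0 := by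
  have h : Zero.ZeroBound := Zero.zeroBound_of_avg Zero.avgThm
  exact ⟨h, (Zero.exponent_zero h).2⟩

end Vale.Agent.Results.P347.ZeroExponent
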